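import Crest.Agent.NLib.Ell.SchAll

/-!
# Row 250 (helper82): `C³` solutions of quasilinear elliptic equations are smooth

`LC k f x` : `f` is `C^{k,1/2}` near `x`.  `boot` is the abstract bootstrap, `quasi_reg` the
statement for `τ (x, u, Du) : D²u = F (x, u, Du)`.
-/

set_option autoImplicit false
open Metric Set Filter Topology
open scoped ContDiff

noncomputable section

namespace Crest.Agent.N250.Rg

open Crest.Agent.NLib.Ell Crest.Agent.R238.Sch Crest.Agent.R273.SchA_152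
open Crest.Agent.R273.SchB_152 (P2)
open Crest.Agent.R238 (Ell)

variable {n : ℕ} {F G : Type} [NormedAddCommGroup F] [NormedSpace ℝ F] [NormedAddCommGroup G]
  [NormedSpace ℝ G] {k : ℕ} {f g : EE n → F} {x : EE n}

/-- `C^{k,1/2}` near `x` -/
def LC (k : ℕ) (f : EE n → F) (x : EE n) : Prop :=
  ∃ r M : ℝ, 0 < r ∧ CKA (1 / 2) (ball x r) k M f

namespace LC

theorem ev (h : LC k f x) : ∃ M, ∀ᶠ r in 𝓝[>] (0 : ℝ), CKA (1 / 2) (ball x r) k M f := by
  obtain ⟨r, M, hr, h⟩ := h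
  refine ⟨M, ?_⟩
  filter_upwards [mem_nhdsWithin_of_mem_nhds (gt_mem_nhds hr)] with s hs
  exact h.subset (ball_subset_ball (le_of_lt hs))

theorem of_ev {M : ℝ} (h : ∀ᶠ r in 𝓝[>] (0 : ℝ), CKA (1 / 2) (ball x r) k M f) : LC k f x := by
  obtain ⟨r, h1, h2⟩ := (h.and self_mem_nhdsWithin).exists
  exact ⟨r, M, h2, h1⟩

theorem contDiffAt (h : LC k f x) : ContDiffAt ℝ k f x := by
  obtain ⟨r, M, hr, h⟩ := h
  exact (h.contDiffOn isOpen_ball (by norm_num)).contDiffAt (ball_mem_nhds x hr)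

theorem of_le (h : LC k f x) {j : ℕ} (hj : j ≤ k) : LC j f x := by
  obtain ⟨r, M, hr, h⟩ := h
  exact ⟨r, M, hr, h.of_le hj⟩

theorem congr (h : LC k f x) (e : g =ᶠ[𝓝 x] f) : LC k g x := by
  obtain ⟨M, h⟩ := h.ev
  obtain ⟨ε, hε, he⟩ := Metric.eventually_nhds_iff_ball.1 e
  refine of_ev (M := M) ?_
  filter_upwards [h, mem_nhdsWithin_of_mem_nhds (gt_mem_nhds hε)] with r h1 h2
  exact h1.congr isOpen_ball fun y hy => he y (ball_subset_ball (le_of_lt h2) hy)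

theorem of_contDiffAt (h : ContDiffAt ℝ (k + 1 : ℕ) f x) : LC k f x := by
  obtain ⟨u, hu, hc⟩ := h.contDiffOn le_rfl (by simp)
  have b : ∀ j : Fin (k + 2), ∃ M, ∀ᶠ y in 𝓝 x, ‖iteratedFDeriv ℝ j f y‖ ≤ M := fun j => by
    have hj : ((j : ℕ) : WithTop ℕ∞) ≤ (k + 1 : ℕ) := by exact_mod_cast Nat.lt_succ_iff.1 j.2
    have c := (h.continuousAt_iteratedFDeriv hj).norm
    exact ⟨_, (c.eventually_lt continuousAt_const (lt_add_one _)).mono fun y hy => hy.le⟩
  choose M hM using b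
  obtain ⟨r, hr, he⟩ := Metric.eventually_nhds_iff_ball.1 ((eventually_all.2 hM).and hu)
  refine ⟨r, 2 * ∑ j, |M j|, hr, CKA.of_bounds isOpen_ball (convex_ball x r) (by norm_num)
    (by norm_num) (hc.mono fun y hy => (he y hy).2) fun j hj y hy => ?_⟩
  refine ((he y hy).1 ⟨j, Nat.lt_succ_iff.2 hj⟩).trans ((le_abs_self _).trans ?_)
  exact Finset.single_le_sum (f := fun j => |M j|) (fun _ _ => abs_nonneg _) (Finset.mem_univ _)

theorem of_smooth (h : ContDiffAt ℝ ∞ f x) : LC k f x :=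
  of_contDiffAt (h.of_le (by exact_mod_cast le_top))

theorem add (hf : LC k f x) (hg : LC k g x) : LC k (fun y => f y + g y) x := by
  obtain ⟨M, h1⟩ := hf.ev
  obtain ⟨N, h2⟩ := hg.ev
  exact of_ev ((h1.and h2).mono fun r h => h.1.add isOpen_ball h.2)

theorem sub (hf : LC k f x) (hg : LC k g x) : LC k (fun y => f y - g y) x := by
  obtain ⟨M, h1⟩ := hf.ev
  obtain ⟨N, h2⟩ := hg.ev
  exact of_ev ((h1.and h2).mono fun r h => h.1.sub isOpen_ball h.2)

theorem mul {f g : EE n → ℝ} (hf : LC k f x) (hg : LC k g x) : LC k (fun y => f y * g y) x := by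
  obtain ⟨M, h1⟩ := hf.ev
  obtain ⟨N, h2⟩ := hg.ev
  exact of_ev ((h1.and h2).mono fun r h => h.1.mul isOpen_ball h.2)

theorem prod {g : EE n → G} (hf : LC k f x) (hg : LC k g x) : LC k (fun y => (f y, g y)) x := by
  obtain ⟨M, h1⟩ := hf.ev
  obtain ⟨N, h2⟩ := hg.ev
  exact of_ev ((h1.and h2).mono fun r h => h.1.prod isOpen_ball h.2)

theorem sum {ι : Type} [Fintype ι] {f : ι → EE n → F} (h : ∀ i, LC k (f i) x) :
    LC k (fun y => ∑ i, f i y) x := by
  choose M hM using fun i => (h i).ev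
  exact of_ev ((eventually_all.2 hM).mono fun r h => CKA.sum isOpen_ball _ fun i _ => h i)

theorem pi {ι : Type} [Fintype ι] {f : ι → EE n → F} (h : ∀ i, LC k (f i) x) :
    LC k (fun y i => f i y) x := by
  choose M hM using fun i => (h i).ev
  refine of_ev ((eventually_all.2 hM).mono fun r h => CKA.pi (M := ∑ i, |M i|) isOpen_ball
    fun i => (h i).mono ((le_abs_self _).trans ?_))
  exact Finset.single_le_sum (f := fun j => |M j|) (fun _ _ => abs_nonneg _) (Finset.mem_univ _)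

theorem pd (h : LC (k + 1) f x) (i : Fin n) : LC k (fun y => fderiv ℝ f y (ei i)) x := by
  obtain ⟨r, M, hr, h⟩ := h
  exact ⟨r, M, hr, h.pd i⟩

theorem fd (h : LC (k + 1) f x) : LC k (fderiv ℝ f) x := by
  obtain ⟨r, M, hr, h⟩ := h
  exact ⟨r, _, hr, h.fderiv isOpen_ball⟩

theorem app {A : EE n → F →L[ℝ] G} (hA : LC k A x) (hf : LC k f x) :
    LC k (fun y => A y (f y)) x := by
  obtain ⟨M, h1⟩ := hA.ev
  obtain ⟨N, h2⟩ := hf.ev
  exact of_ev ((h1.and h2).mono fun r h => h.1.app isOpen_ball h.2)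

/-- composition with a map which is smooth on an open set -/
theorem comp [FiniteDimensional ℝ F] {Φ : F → G} {W : Set F} (hW : IsOpen W)
    (hΦ : ContDiffOn ℝ ∞ Φ W) (h : LC k f x) (hx : f x ∈ W) : LC k (fun y => Φ (f y)) x := by
  have := FiniteDimensional.proper_real F
  obtain ⟨δ, hδ, hK⟩ := nhds_basis_closedBall.mem_iff.1 (hW.mem_nhds hx)
  obtain ⟨M, h1⟩ := h.ev
  obtain ⟨C, hC⟩ := NLib.Ell.comp n k (1 / 2) M (by norm_num) (by norm_num) F G Φ W _ hW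
    (isCompact_closedBall _ δ) hK hΦ
  obtain ⟨ε, hε, he⟩ := Metric.eventually_nhds_iff_ball.1
    (h.contDiffAt.continuousAt.eventually_mem (closedBall_mem_nhds _ hδ))
  refine of_ev (M := C) ?_
  filter_upwards [h1, mem_nhdsWithin_of_mem_nhds (gt_mem_nhds hε)] with r h1 h2
  exact hC _ f isOpen_ball (fun y hy => he y (ball_subset_ball (le_of_lt h2) hy)) h1

end LC

/-- positive forms are uniformly elliptic near a point -/
theorem ell_near {τ : Fin n → Fin n → EE n → ℝ} (hc : ∀ i j, ContinuousAt (τ i j) x)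
    (hp : ∀ z : Fin n → ℝ, z ≠ 0 → 0 < ∑ i, ∑ j, τ i j x * z i * z j) :
    ∃ lo hi : ℝ, 0 < lo ∧ lo ≤ hi ∧ ∀ᶠ y in 𝓝 x, ∀ z : Fin n → ℝ,
      lo * ∑ i, z i ^ 2 ≤ ∑ i, ∑ j, τ i j y * z i * z j ∧
        ∑ i, ∑ j, τ i j y * z i * z j ≤ hi * ∑ i, z i ^ 2 := by
  set K : Set (Fin n → ℝ) := {z | ∑ i, z i ^ 2 = 1} with hK
  have cK : IsCompact K := by
    refine (isCompact_closedBall (0 : Fin n → ℝ) 1).of_isClosed_subset
      (isClosed_eq (by fun_prop) continuous_const) fun z hz => ?_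
    rw [mem_closedBall_zero_iff, pi_norm_le_iff_of_nonneg zero_le_one]
    intro i
    have : z i ^ 2 ≤ 1 := hz ▸ Finset.single_le_sum (f := fun i => z i ^ 2)
      (fun _ _ => sq_nonneg _) (Finset.mem_univ i)
    exact abs_le_one_iff_mul_self_le_one.2 (by nlinarith)
  have cq : Continuous fun z : Fin n → ℝ => ∑ i, ∑ j, τ i j x * z i * z j := by fun_prop
  obtain ⟨lo, hlo, h1⟩ := cK.exists_forall_le' (a := 0) cq.continuousOn fun z hz => hp z (by
    rintro rfl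
    simp [hK] at hz)
  obtain ⟨hi, h2⟩ := cK.bddAbove_image cq.continuousOn
  have h3 : ∀ᶠ y in 𝓝 x, ∀ z ∈ K, lo / 2 < ∑ i, ∑ j, τ i j y * z i * z j ∧
      ∑ i, ∑ j, τ i j y * z i * z j < max lo hi + 1 := by
    refine cK.eventually_forall_of_forall_eventually fun z hz => ?_
    have c : ContinuousAt (fun p : EE n × (Fin n → ℝ) => ∑ i, ∑ j, τ i j p.1 * p.2 i * p.2 j)
        (x, z) := tendsto_finsetSum _ fun i _ => tendsto_finsetSum _ fun j _ =>
      (((hc i j).comp_of_eq continuousAt_fst rfl).mul (by fun_prop)).mul (by fun_prop)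
    refine (continuousAt_const.eventually_lt c ?_).and (c.eventually_lt continuousAt_const ?_)
    · linarith [h1 z hz]
    · linarith [h2 ⟨z, hz, rfl⟩, le_max_right lo hi]
  refine ⟨lo / 2, max lo hi + 1, by linarith, by linarith [le_max_left lo hi],
    h3.mono fun y hy z => ?_⟩
  rcases eq_or_ne z 0 with rfl | hz
  · simp
  have s0 : 0 < ∑ i, z i ^ 2 := by
    obtain ⟨i, hi⟩ := Function.ne_iff.1 hz
    exact Finset.sum_pos' (fun _ _ => sq_nonneg _) ⟨i, Finset.mem_univ _, sq_pos_of_ne_zero hi⟩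
  set s := ∑ i, z i ^ 2 with hs
  have r2 : (√s)⁻¹ * (√s)⁻¹ = s⁻¹ := by rw [← mul_inv, Real.mul_self_sqrt s0.le]
  have hm : (fun i => (√s)⁻¹ * z i) ∈ K := by
    change ∑ i, ((√s)⁻¹ * z i) ^ 2 = 1
    simp only [mul_pow, ← Finset.mul_sum]
    rw [sq, r2, ← hs, inv_mul_cancel₀ s0.ne']
  have e : ∑ i, ∑ j, τ i j y * ((√s)⁻¹ * z i) * ((√s)⁻¹ * z j) =
      s⁻¹ * ∑ i, ∑ j, τ i j y * z i * z j := by
    simp only [Finset.mul_sum]
    exact Finset.sum_congr rfl fun i _ => Finset.sum_congr rfl fun j _ => by rw [← r2]; ring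
  obtain ⟨a, b⟩ := hy _ hm
  rw [e, inv_mul_eq_div] at a b
  exact ⟨((lt_div_iff₀ s0).1 a).le, ((div_lt_iff₀ s0).1 b).le⟩

/-- one Schauder step -/
theorem step {u f : EE n → ℝ} {τ : Fin n → Fin n → EE n → ℝ} (hu : LC 2 u x)
    (hτ : ∀ i j, LC k (τ i j) x) (hf : LC k f x)
    (hp : ∀ z : Fin n → ℝ, z ≠ 0 → 0 < ∑ i, ∑ j, τ i j x * z i * z j)
    (he : ∀ᶠ y in 𝓝 x, ∑ i, ∑ j, τ i j y * fderiv ℝ (fderiv ℝ u) y (ei i) (ei j) = f y) :
    LC (k + 2) u x := by
  obtain ⟨lo, hi, hlo, hhi, h1⟩ := ell_near (fun i j => (hτ i j).contDiffAt.continuousAt) hp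
  have hσ : ∀ i j, LC k (fun y => (1 / 2 : ℝ) * (τ i j y + τ j i y)) x := fun i j =>
    (LC.of_smooth contDiffAt_const).mul ((hτ i j).add (hτ j i))
  choose M hM using fun p : Fin n × Fin n => (hσ p.1 p.2).ev
  obtain ⟨N, hN⟩ := hf.ev
  obtain ⟨V, hV⟩ := hu.ev
  obtain ⟨ε, hε, h2⟩ := Metric.eventually_nhds_iff_ball.1 (h1.and he)
  obtain ⟨R, ⟨⟨⟨a1, a2⟩, a3⟩, a4⟩, a5⟩ := (((((eventually_all.2 hM).and hN).and hV).and
    (mem_nhdsWithin_of_mem_nhds (gt_mem_nhds (lt_min hε one_pos)))).and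
      self_mem_nhdsWithin).exists
  have hR : 0 < R := a5
  have a4' : R < min ε 1 := a4
  have hsub : ball x R ⊆ ball x ε := ball_subset_ball (a4'.le.trans (min_le_left _ _))
  have M0 : 0 ≤ ∑ p, |M p| := Finset.sum_nonneg fun _ _ => abs_nonneg _
  obtain ⟨C, -, H⟩ := schAll n k (1 / 2) lo hi (∑ p, |M p|) R (by norm_num) (by norm_num) hlo hhi
    hR (a4'.le.trans (min_le_right _ _))
  refine ⟨R / 2, _, by positivity, H x (fun y => Matrix.of fun i j => 1 / 2 * (τ i j y + τ j i y))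
    (fun _ _ => 0) (fun _ => 0) u f N V (fun y hy => ⟨fun i j => by simp [add_comm], fun z => ?_⟩)
    (fun i j => (a1 (i, j)).mono ((le_abs_self _).trans ?_)) (fun _ => CKA.zero.mono M0)
    (CKA.zero.mono M0) a2 ⟨V, a3⟩ (fun y hy => a3.bdd hy) fun y hy => ?_⟩
  · have e : ∑ i, ∑ j, (Matrix.of fun i j => 1 / 2 * (τ i j y + τ j i y)) i j * z i * z j =
        ∑ i, ∑ j, τ i j y * z i * z j := by
      have e2 : ∑ i, ∑ j, τ j i y * z i * z j = ∑ i, ∑ j, τ i j y * z i * z j := by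
        rw [Finset.sum_comm]
        exact Finset.sum_congr rfl fun i _ => Finset.sum_congr rfl fun j _ => by ring
      simp only [Matrix.of_apply, mul_add, add_mul, mul_assoc, Finset.sum_add_distrib] at e2 ⊢
      simp only [← Finset.mul_sum (s := Finset.univ) (a := (1 / 2 : ℝ))]
      linarith
    rw [e]
    exact (h2 y (hsub hy)).1 z
  · exact Finset.single_le_sum (f := fun j => |M j|) (fun _ _ => abs_nonneg _) (Finset.mem_univ _)
  · have c2 : ContDiffAt ℝ 2 u y :=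
      (a3.contDiffOn_two isOpen_ball (by norm_num)).contDiffAt (isOpen_ball.mem_nhds hy)
    have sy := c2.isSymmSndFDerivAt (by simp)
    have e2 : ∑ i, ∑ j, τ j i y * fderiv ℝ (fderiv ℝ u) y (ei i) (ei j) =
        ∑ i, ∑ j, τ i j y * fderiv ℝ (fderiv ℝ u) y (ei i) (ei j) := by
      rw [Finset.sum_comm]
      exact Finset.sum_congr rfl fun i _ => Finset.sum_congr rfl fun j _ => by rw [sy.eq]
    have e3 := (h2 y (hsub hy)).2
    change ∑ i, ∑ j, 1 / 2 * (τ i j y + τ j i y) * fderiv ℝ (fderiv ℝ u) y (ei i) (ei j) + _ + _ = _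
    simp only [mul_add, add_mul, mul_assoc, Finset.sum_add_distrib, zero_mul,
      Finset.sum_const_zero, add_zero]
    simp only [← Finset.mul_sum (s := Finset.univ) (a := (1 / 2 : ℝ))]
    linarith

/-- the abstract bootstrap at a point -/
theorem boot {u f : EE n → ℝ} {τ : Fin n → Fin n → EE n → ℝ} (hu : ContDiffAt ℝ 3 u x)
    (hc : ∀ k : ℕ, LC (k + 1) u x → (∀ i j, LC k (τ i j) x) ∧ LC k f x)
    (hp : ∀ z : Fin n → ℝ, z ≠ 0 → 0 < ∑ i, ∑ j, τ i j x * z i * z j)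
    (he : ∀ᶠ y in 𝓝 x, ∑ i, ∑ j, τ i j y * fderiv ℝ (fderiv ℝ u) y (ei i) (ei j) = f y)
    (k : ℕ) : ContDiffAt ℝ k u x := by
  have h2 : LC 2 u x := LC.of_contDiffAt (by exact_mod_cast hu)
  have : ∀ k : ℕ, LC (k + 2) u x := fun k => by
    induction k with
    | zero => exact h2
    | succ k ih => exact step h2 (hc _ ih).1 (hc _ ih).2 hp he
  exact ((this k).of_le (by omega)).contDiffAt

/-- point, value, gradient -/
def jet (u : EE n → ℝ) (x : EE n) : EE n × ℝ × (Fin n → ℝ) :=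
  (x, u x, fun i => fderiv ℝ u x (ei i))

/-- **`C³` solutions of quasilinear elliptic equations are smooth** -/
theorem quasi_reg {U : Set (EE n)} (hU : IsOpen U) {u : EE n → ℝ} (hu : ContDiffOn ℝ 3 u U)
    {W : Set (EE n × ℝ × (Fin n → ℝ))} (hW : IsOpen W)
    {τ : Fin n → Fin n → EE n × ℝ × (Fin n → ℝ) → ℝ} {Φ : EE n × ℝ × (Fin n → ℝ) → ℝ}
    (hτ : ∀ i j, ContDiffOn ℝ ∞ (τ i j) W) (hΦ : ContDiffOn ℝ ∞ Φ W) (hj : ∀ x ∈ U, jet u x ∈ W)
    (hp : ∀ x ∈ U, ∀ z : Fin n → ℝ, z ≠ 0 → 0 < ∑ i, ∑ j, τ i j (jet u x) * z i * z j)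
    (he : ∀ x ∈ U, ∑ i, ∑ j, τ i j (jet u x) * fderiv ℝ (fderiv ℝ u) x (ei i) (ei j) =
      Φ (jet u x)) : ContDiffOn ℝ ∞ u U := by
  refine contDiffOn_infty.2 fun k x hx => ContDiffAt.contDiffWithinAt ?_
  refine boot (τ := fun i j y => τ i j (jet u y)) (f := fun y => Φ (jet u y))
    (hu.contDiffAt (hU.mem_nhds hx)) (fun k h => ?_) (hp x hx)
    ((hU.eventually_mem hx).mono he) k
  have J : LC k (jet u) x := (LC.of_smooth contDiffAt_id).prod
    ((h.of_le k.le_succ).prod (LC.pi fun i => h.pd i))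
  exact ⟨fun i j => J.comp hW (hτ i j) (hj x hx), J.comp hW hΦ (hj x hx)⟩

end Crest.Agent.N250.Rg

end
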